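import Vale.Agent.P216.V670.Push

/-!
# P216-V, F-STEP: 670's `PSys` and `IsCol` at the scales after `i₀`

`Up i₀`: the indices after `i₀`. `PSys.sub S i₀`: the system restricted to `Up i₀`, `Loss.sub`,
`Bex.sub`, `Bz.sub`, `IsCol.sub`.
-/

universe w u₁ u₂ u₃ v

namespace Vale.Agent.P216.V670

open V609 H923G

/-- the indices after `i₀` -/
abbrev Up {ι : Type v} [Preorder ι] (i₀ : ι) : Type v := {i : ι // i₀ ≤ i}

instance {ι : Type v} [Preorder ι] (i₀ : ι) : Nonempty (Up i₀) := ⟨⟨i₀, le_rfl⟩⟩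

instance {ι : Type v} [Preorder ι] [IsDirectedOrder ι] (i₀ : ι) : IsDirectedOrder (Up i₀) where
  directed := fun a b => by
    obtain ⟨c, h1, h2⟩ := directed_of (· ≤ ·) a.1 b.1
    exact ⟨⟨c, a.2.trans h1⟩, h1, h2⟩

/-- the colimit over the indices after `i₀` -/
theorem IsCol.sub {k : Type*} [Field k] {ι : Type*} [Preorder ι] {W : ι → Type*}
    [∀ i, Ring (W i)] [∀ i, Algebra k (W i)] {D : ∀ i, NDga k (W i)}
    {r : ∀ i j, i ≤ j → NDga.Hom (D i) (D j)} {G : Type*} [Ring G] [Algebra k G] {GD : NDga k G}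
    {γ : ∀ i, NDga.Hom (D i) GD} (H : IsCol D r GD γ) (i₀ : ι) :
    IsCol (fun i : Up i₀ => D i.1) (fun i j h => r i.1 j.1 h) GD (fun i => γ i.1) where
  res i j h w := H.res i.1 j.1 h w
  surj := by
    intro m z hz i₁
    obtain ⟨i, h1, h2⟩ := H.surj hz i₁.1
    exact ⟨⟨i, i₁.2.trans h1⟩, h1, h2⟩
  eq_zero := by
    intro i w h
    obtain ⟨j, h1, h2⟩ := H.eq_zero h
    exact ⟨⟨j, i.2.trans h1⟩, h1, h2⟩

namespace PSys

variable {k : Type w} [Field k] {ι : Type v} [Preorder ι]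

/-- **The system at the scales after `i₀`.** -/
def sub (S : PSys.{w, u₁, u₂, u₃, v} k ι) (i₀ : ι) : PSys.{w, u₁, u₂, u₃, v} k (Up i₀) where
  B i := S.B i.1
  C i := S.C i.1
  β i j h := S.β i.1 j.1 h
  W t i := S.W t i.1
  D t i := S.D t i.1
  r s t i j h h' := S.r s t i.1 j.1 h h'
  φ t i := S.φ t i.1
  L t i := S.L t i.1
  Q t i := S.Q t i.1
  O t i := S.O t i.1
  σ s t i j h h' := S.σ s t i.1 j.1 h h'
  rO t i := S.rO t i.1
  β_β i j l h h' b := S.β_β i.1 j.1 l.1 h h' b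
  r_r s t u i j l h h₁ h' h₁' w := S.r_r s t u i.1 j.1 l.1 h h₁ h' h₁' w
  r_φ s t i j h h' b := S.r_φ s t i.1 j.1 h h' b
  r_L s t i j h h' {_ _} hw := S.r_L s t i.1 j.1 h h' hw
  rO_r s t i j h h' w := S.rO_r s t i.1 j.1 h h' w
  fil t i := S.fil t i.1
  rO_L t i {_ _} h1 h2 := S.rO_L t i.1 h1 h2

variable {S : PSys.{w, u₁, u₂, u₃, v} k ι} (i₀ : ι)

theorem Pd.sub {s t : ℝ} {i j : Up i₀} {h : t ≤ s} {h' : i ≤ j} {q : ℕ}
    (P : S.Pd s t i.1 j.1 h h' q) : (S.sub i₀).Pd s t i j h h' q := P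

theorem Loss.sub {t₀ c : ℝ} (H : S.Loss t₀ c) : (S.sub i₀).Loss t₀ c where
  nonneg := H.nonneg
  pd s t h ht i q := by
    obtain ⟨j, h', P⟩ := H.pd s t h ht i.1 q
    exact ⟨⟨j, i.2.trans h'⟩, h', P⟩

theorem Bex.sub {e : ℕ} (H : S.Bex e) : (S.sub i₀).Bex e := by
  intro i m hm x hx hd
  obtain ⟨j, h, y, hy⟩ := H i.1 m hm x hx hd
  exact ⟨⟨j, i.2.trans h⟩, h, y, hy⟩

theorem Bz.sub (H : S.Bz) : (S.sub i₀).Bz := by
  intro i x hx hd
  obtain ⟨j, h, c, hc⟩ := H i.1 x hx hd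
  exact ⟨⟨j, i.2.trans h⟩, h, c, hc⟩

end PSys

end Vale.Agent.P216.V670
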