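import Vale.Agent.P216.H977V.AbsTw
import Vale.Agent.P216.V670.Push

/-!
# P216-V, F-STEP: 670's `PSys` along a tower

`S : PSys k ι`, a tower `T : Tw X₀` over `X₀` and compatible morphisms `u i : X₀ → S.C i`. `S.tw`:
the system of the towers `T.push (u i)`: base `(T.push (u i)).top`, hybrid `(T.push (u i)).obj`,
the same fibre (all the generators go to zero). `Loss.tw`: the steps pass to the towers.
-/

universe w u₁ u₂ u₃ v u

namespace Vale.Agent.P216.V670.PSys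

open V609 V775 V754 H923G

variable {k : Type w} [Field k] {ι : Type v} [Preorder ι] (S : PSys.{w, u₁, u₂, u₃, v} k ι)

/-- the base, bundled -/
abbrev cd (i : ι) : CD.{u₁} k := ⟨S.B i, S.C i⟩

/-- the hybrid, bundled -/
abbrev nd (t : ℝ) (i : ι) : ND.{u₂} (S.cd i) := ⟨S.W t i, S.D t i, S.φ t i⟩

/-- the restriction, bundled -/
abbrev nm (s t : ℝ) (i j : ι) (h : t ≤ s) (h' : i ≤ j) :
    NMp (S.β i j h') (S.nd s i) (S.nd t j) := ⟨S.r s t i j h h', S.r_φ s t i j h h'⟩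

/-- Positive degrees of the base vanish on the fibre. -/
def Zps : Prop := ∀ t i, Zp (S.nd t i) (S.rO t i)

/-- compatible morphisms into the bases -/
structure Cone (X₀ : CD.{u} k) where
  u : ∀ i, X₀.Hm (S.cd i)
  hu : ∀ i j h a, (S.β i j h).f ((u i).f a) = (u j).f a

variable {S}

/-- **The system of a tower.** -/
def tw (hZ : S.Zps) {X₀ : CD.{u} k} (T : Tw X₀) (K : S.Cone X₀) :
    PSys.{w, u₁, u₂, u₃, v} k ι where
  B i := (T.push (K.u i)).top.A
  C i := (T.push (K.u i)).top.C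
  β i j h := tri T (K.u i) (K.u j) (S.β i j h) (K.hu i j h)
  W t i := ((T.push (K.u i)).obj (S.nd t i)).A
  D t i := ((T.push (K.u i)).obj (S.nd t i)).D
  r s t i j h h' := (ntri T (K.u i) (K.u j) (S.β i j h') (K.hu i j h') (S.nm s t i j h h')).g
  φ t i := ((T.push (K.u i)).obj (S.nd t i)).ev
  L t i := H923G.fil (T.push (K.u i)) (S.nd t i) (S.L t i)
  Q := S.Q
  O := S.O
  σ := S.σ
  rO t i := tz (T.push (K.u i)) (S.nd t i) (S.rO t i) (hZ t i)
  β_β i j l h h' b := tri_tri T (K.u i) (K.u j) (K.u l) _ _ _ (K.hu i j h) (K.hu j l h')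
    (K.hu i l (h.trans h')) (S.β_β i j l h h') b
  r_r s t u i j l h h₁ h' h₁' a := ntri_ntri T (K.u i) (K.u j) (K.u l) _ _ _ (K.hu i j h₁)
    (K.hu j l h₁') (K.hu i l (h₁.trans h₁')) (S.nm s t i j h h₁) (S.nm t u j l h' h₁')
    (S.nm s u i l (h'.trans h) (h₁.trans h₁')) (S.r_r s t u i j l h h₁ h' h₁') a
  r_φ s t i j h h' b := (ntri T (K.u i) (K.u j) (S.β i j h') (K.hu i j h')
    (S.nm s t i j h h')).ev b
  r_L s t i j h h' {n a} ha := fil_ntri T (K.u i) (K.u j) _ (K.hu i j h') (S.nm s t i j h h')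
    (fun _ _ h1 => S.r_L s t i j h h' h1) n a ha
  rO_r s t i j h h' a := tz_ntri T (K.u i) (K.u j) _ (K.hu i j h') (S.nm s t i j h h')
    (S.rO s i) (hZ s i) (S.rO t j) (hZ t j) (S.σ s t i j h h') (S.rO_r s t i j h h') a
  fil t i := Fil.tw (T.push (K.u i)) (S.nd t i) (S.fil t i)
  rO_L t i {q a} h1 h2 := tz_low (T.push (K.u i)) (S.nd t i) (hZ t i)
    (fun _ _ h3 h4 => S.rO_L t i h3 h4) q a h1 h2

variable (hZ : S.Zps) {X₀ : CD.{u} k} (T : Tw X₀) (K : S.Cone X₀)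

/-- positive degrees of the base of the tower vanish on the fibre -/
theorem Zps.tw : (PSys.tw hZ T K).Zps := fun t i => zp_tz (T.push (K.u i)) (S.nd t i) _ (hZ t i)

/-- **The data of one step pass to the towers.** -/
theorem Pd.tw {s t : ℝ} {i j : ι} {h : t ≤ s} {h' : i ≤ j} {q : ℕ} (P : S.Pd s t i j h h' q) :
    (PSys.tw hZ T K).Pd s t i j h h' q := by
  obtain ⟨A, hA, ⟨P⟩⟩ := P
  exact ⟨A, hA, ⟨PushD.tw T (K.u i) (K.u j) (S.β i j h') (K.hu i j h') (S.nm s t i j h h')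
    (hZ s i) (S.fil s i) (S.fil t j) P⟩⟩

/-- **The loss passes to the towers.** -/
theorem Loss.tw {t₀ c : ℝ} (H : S.Loss t₀ c) : (PSys.tw hZ T K).Loss t₀ c where
  nonneg := H.nonneg
  pd s t h ht i q := by
    obtain ⟨j, h', P⟩ := H.pd s t h ht i q
    exact ⟨j, h', Pd.tw hZ T K P⟩

end Vale.Agent.P216.V670.PSys
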