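import Vale.Agent.P216.V994.PInst
import Vale.Agent.P216.H977V.PSysTw
import Vale.Agent.P216.H977V.PSysSub

/-!
# P216-V, (F): `Zps` for the plain system, the cone of the scales after `i₀`
-/

universe w u₁ u₂ u₃ v

namespace Vale.Agent.P216.V670.PSys

open V609 V775 V754 H923G

variable {k : Type w} [Field k] {ι : Type v} [Preorder ι]

/-- `Zps` at the scales after `i₀` -/
theorem Zps.sub {S : PSys.{w, u₁, u₂, u₃, v} k ι} (hZ : S.Zps) (i₀ : ι) : (S.sub i₀).Zps :=
  fun t i => hZ t i.1

/-- **the restrictions from the scale `i₀`** -/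
def subCone (S : PSys.{w, u₁, u₂, u₃, v} k ι) (i₀ : ι) : (S.sub i₀).Cone (S.cd i₀) where
  u i := S.β i₀ i.1 i.2
  hu i j h a := S.β_β i₀ i.1 j.1 i.2 h a

end Vale.Agent.P216.V670.PSys

namespace Vale.Agent.P216.H977V

/-- **`Zps` for the plain system.** -/
theorem zps_plain {M : Type} [MetricSpace M] (b : M) : (V994.plain b).Zps :=
  fun _ _ m a ha => V994.PI.rO_ph b m a ha

/-- `Zps` for the plain system after `i₀` -/
theorem zps_plain_sub {M : Type} [MetricSpace M] (b : M) (i₀ : H285V.Sc) :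
    ((V994.plain b).sub i₀).Zps := V670.PSys.Zps.sub (zps_plain b) i₀

end Vale.Agent.P216.H977V
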