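import Vale.Agent.P216.H923G.Abs

/-!
# P216-V, row F-ABS: one extension by an odd generator

`Lex L`: the filtration of `D ⟨e⟩` by the filtration of the coefficients. `Aug φ rO`: the elements of
positive degree of the base vanish on the fibre. `augEx rO`: `e ↦ 0`. Then `Fil.ex`, `Aug.ex`,
`Ev.ex`, `EvT.ex`, `PushD.ex`: all the structures of `H923G/Abs.lean` pass to `C ⟨e⟩`, `D ⟨e⟩`,
everything componentwise.
-/

open Finset

namespace Vale.Agent.P216.H923G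

open V609

variable {k : Type*} [Field k]
variable {B B' W W' Ω Ω' : Type*} [Ring B] [Algebra k B] [Ring B'] [Algebra k B'] [Ring W]
  [Algebra k W] [Ring W'] [Algebra k W'] [Ring Ω] [Algebra k Ω] [Ring Ω'] [Algebra k Ω']

/-- the filtration of `D ⟨e⟩` -/
def Lex {D : NDga k W} (L : ℕ → Submodule k W) (n : ℕ) : Submodule k (NEx k D) where
  carrier := {a | a.1 ∈ L n ∧ a.2 ∈ L n}
  add_mem' := fun ha hb => ⟨Submodule.add_mem _ ha.1 hb.1, Submodule.add_mem _ ha.2 hb.2⟩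
  zero_mem' := ⟨Submodule.zero_mem _, Submodule.zero_mem _⟩
  smul_mem' := fun c _ h => ⟨Submodule.smul_mem _ c h.1, Submodule.smul_mem _ c h.2⟩

theorem mem_Lex {D : NDga k W} {L : ℕ → Submodule k W} {n : ℕ} {a : NEx k D} :
    a ∈ Lex L n ↔ a.1 ∈ L n ∧ a.2 ∈ L n := Iff.rfl

/-- the shifted degrees of `D` are of low filtration -/
theorem Fil.degS_le {C : Cdga k B} {D : NDga k W} {φ : CHom C D} {L : ℕ → Submodule k W}
    (F : Fil φ L) {l : ℕ} (hl : Odd l) {n : ℕ} {w : W} (h : w ∈ D.degS l n) : w ∈ L n := by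
  rcases D.mem_degS h with h | ⟨j, h1, h⟩
  · rw [h]; exact Submodule.zero_mem _
  · exact F.mono (by have := hl.pos; omega) (F.deg_le j h)

/-- **The filtration passes to `D ⟨e⟩`.** -/
theorem Fil.ex {C : Cdga k B} {D : NDga k W} {φ : CHom C D} {L : ℕ → Submodule k W}
    (F : Fil φ L) {l : ℕ} (hl : Odd l) {x : B} (hx : x ∈ C.deg (l + 1)) (hdx : C.d x = 0) :
    Fil (φ.ex hl hx hdx) (Lex (D := D) L) where
  zero := by
    rw [eq_bot_iff]
    rintro a ⟨h1, h2⟩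
    rw [F.zero] at h1 h2
    exact NEx.ext h1 h2
  mono := fun _ _ h _ ha => ⟨F.mono h ha.1, F.mono h ha.2⟩
  deg_le m := fun _ ha => ⟨F.deg_le m ha.1, F.mono (Nat.le_succ m) (F.degS_le hl ha.2)⟩
  sg := fun h => ⟨F.sg h.1, Submodule.neg_mem _ (F.sg h.2)⟩
  mul := by
    rintro n w ⟨h1, h2⟩ b
    refine ⟨F.mul h1 b.1, Submodule.add_mem _ (F.mul h1 b.2) ?_⟩
    show w.2 * D.sg (φ.f b.1) ∈ L n
    rw [← φ.sg']
    exact F.mul h2 _

/-- Elements of positive degree of the base vanish on the fibre. -/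
def Aug {C : Cdga k B} {D : NDga k W} {O : NDga k Ω} (φ : CHom C D) (rO : NDga.Hom D O) : Prop :=
  ∀ (m : ℕ) (x : B), x ∈ C.deg (m + 1) → rO.f (φ.f x) = 0

/-- the restriction of `D ⟨e⟩` to the fibre, `e ↦ 0` -/
def augEx {C : Cdga k B} {D : NDga k W} {O : NDga k Ω} {φ : CHom C D} (rO : NDga.Hom D O)
    {l : ℕ} (hl : Odd l) {x : B} (hx : x ∈ C.deg (l + 1)) (hdx : C.d x = 0)
    (h : rO.f (φ.f x) = 0) :
    NDga.Hom (D.ex hl (φ.deg' hx) (φ.d_closed hdx) (φ.central_succ hl hx)) O where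
  f := AlgHom.ofLinearMap
    { toFun := fun a => rO.f a.1
      map_add' := fun a b => by simp
      map_smul' := fun r a => by simp } (by simp) (fun a b => by simp)
  deg := fun ha => rO.deg ha.1
  sg a := rO.sg a.1
  d a := by
    show rO.f (D.d a.1 + D.sg a.2 * φ.f x) = O.d (rO.f a.1)
    rw [map_add, map_mul, h, mul_zero, add_zero, rO.d]

@[simp] theorem augEx_f {C : Cdga k B} {D : NDga k W} {O : NDga k Ω} {φ : CHom C D}
    (rO : NDga.Hom D O) {l : ℕ} (hl : Odd l) {x : B} (hx : x ∈ C.deg (l + 1)) (hdx : C.d x = 0)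
    (h : rO.f (φ.f x) = 0) (a : NEx k D) : (augEx rO hl hx hdx h).f a = rO.f a.1 := rfl

/-- **`Aug` passes to `D ⟨e⟩`.** -/
theorem Aug.ex {C : Cdga k B} {D : NDga k W} {O : NDga k Ω} {φ : CHom C D} {rO : NDga.Hom D O}
    (A : Aug φ rO) {l : ℕ} (hl : Odd l) {x : B} (hx : x ∈ C.deg (l + 1)) (hdx : C.d x = 0) :
    Aug (φ.ex hl hx hdx) (augEx rO hl hx hdx (A l x hx)) := fun m y hy => A m y.1 hy.1

/-- a componentwise linear map -/
def mapEx {D : NDga k W} {C' : Cdga k B'} (c : W →ₗ[k] B') : NEx k D →ₗ[k] Ex k C' where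
  toFun a := ⟨c a.1, c a.2⟩
  map_add' a b := by ext <;> simp
  map_smul' r a := by ext <;> simp

@[simp] theorem mapEx_fst {D : NDga k W} {C' : Cdga k B'} (c : W →ₗ[k] B') (a : NEx k D) :
    (mapEx (C' := C') c a).1 = c a.1 := rfl

@[simp] theorem mapEx_snd {D : NDga k W} {C' : Cdga k B'} (c : W →ₗ[k] B') (a : NEx k D) :
    (mapEx (C' := C') c a).2 = c a.2 := rfl

/-- a componentwise linear map -/
def mapNEx {D : NDga k W} {D' : NDga k W'} (c : W →ₗ[k] W') : NEx k D →ₗ[k] NEx k D' where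
  toFun a := ⟨c a.1, c a.2⟩
  map_add' a b := by ext <;> simp
  map_smul' r a := by ext <;> simp

@[simp] theorem mapNEx_fst {D : NDga k W} {D' : NDga k W'} (c : W →ₗ[k] W') (a : NEx k D) :
    (mapNEx (D' := D') c a).1 = c a.1 := rfl

@[simp] theorem mapNEx_snd {D : NDga k W} {D' : NDga k W'} (c : W →ₗ[k] W') (a : NEx k D) :
    (mapNEx (D' := D') c a).2 = c a.2 := rfl

theorem NEx_fst_sum {D : NDga k W} {ι : Type*} (s : Finset ι) (f : ι → NEx k D) :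
    (∑ i ∈ s, f i).1 = ∑ i ∈ s, (f i).1 :=
  map_sum (⟨⟨fun a : NEx k D => a.1, rfl⟩, fun _ _ => rfl⟩ : NEx k D →+ W) f s

theorem NEx_snd_sum {D : NDga k W} {ι : Type*} (s : Finset ι) (f : ι → NEx k D) :
    (∑ i ∈ s, f i).2 = ∑ i ∈ s, (f i).2 :=
  map_sum (⟨⟨fun a : NEx k D => a.2, rfl⟩, fun _ _ => rfl⟩ : NEx k D →+ W) f s

section Ev

variable {C : Cdga k B} {C' : Cdga k B'} {D : NDga k W} {D' : NDga k W'} {O : NDga k Ω}
  {O' : NDga k Ω'} {φ : CHom C D} {φ' : CHom C' D'} {ρ : Cdga.Hom C C'} {r : NDga.Hom D D'}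
  {L : ℕ → Submodule k W} {L' : ℕ → Submodule k W'} {rO : NDga.Hom D O} {s : NDga.Hom O O'}
  {q : ℕ} {Z : Type*}

theorem Ev.low_degS (E : Ev φ ρ L rO q Z) (F : Fil φ L) {l : ℕ} (hl : Odd l) {w : W}
    (h : w ∈ D.degS l q) (z : Z) : E.c z w = 0 := E.low z (F.degS_le hl h)

/-- the first component of a pair with `D w` of low filtration -/
theorem Fil.ex_d_mem (F : Fil φ L) {l : ℕ} (hl : Odd l) {x : B} (hx : x ∈ C.deg (l + 1))
    (hdx : C.d x = 0) {n : ℕ} {w : NEx k D} (h1 : w ∈ Lex (D := D) L n)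
    (h2 : (D.ex hl (φ.deg' hx) (φ.d_closed hdx) (φ.central_succ hl hx)).d w ∈
      Lex (D := D) L n) : D.d w.1 ∈ L n ∧ D.d w.2 ∈ L n := by
  refine ⟨?_, h2.2⟩
  have h3 : D.d w.1 + D.sg w.2 * φ.f x ∈ L n := h2.1
  exact (Submodule.add_mem_iff_left _ (F.mul (F.sg h1.2) x)).1 h3

/-- **Evaluations pass to `C ⟨e⟩`, `D ⟨e⟩`.** -/
def Ev.ex (E : Ev φ ρ L rO q Z) (F : Fil φ L) {l : ℕ} (hl : Odd l) {x : B}
    (hx : x ∈ C.deg (l + 1)) (hdx : C.d x = 0) {x' : B'} (hx' : x' ∈ C'.deg (l + 1))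
    (hdx' : C'.d x' = 0) (h : ρ.f x = x') (h0 : rO.f (φ.f x) = 0) :
    Ev (φ.ex hl hx hdx) (ρ.exMap hl hx hdx hx' hdx' h) (Lex (D := D) L)
      (augEx rO hl hx hdx h0) q Z where
  c z := mapEx (E.c z)
  deg z m j w hm hw := by
    refine ⟨E.deg z hm hw.1, ?_⟩
    show E.c z w.2 ∈ C'.degS l j
    rcases D.mem_degS hw.2 with h1 | ⟨i, h1, h2⟩
    · rw [h1, map_zero]; exact Submodule.zero_mem _
    · by_cases h3 : l ≤ j
      · exact C'.degS_of (j := j - l) (by omega) (E.deg z (by omega) h2)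
      · rw [E.low z (F.mono (by omega) (F.deg_le i h2))]
        exact Submodule.zero_mem _
  sg z w := by
    ext
    · exact E.sg z w.1
    · show E.c z (-D.sg w.2) = (-1 : k) ^ q • -C'.sg (E.c z w.2)
      rw [map_neg, E.sg, smul_neg]
  mul z w b := by
    ext
    · exact E.mul z w.1 b.1
    · show E.c z (w.1 * φ.f b.2 + w.2 * D.sg (φ.f b.1)) =
        E.c z w.1 * ρ.f b.2 + E.c z w.2 * C'.sg (ρ.f b.1)
      rw [map_add, E.mul, ← φ.sg', E.mul, ρ.sg]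
  low z w hw := by
    ext
    · exact E.low z hw.1
    · exact E.low z hw.2
  d z w h1 h2 := by
    obtain ⟨h3, h4⟩ := F.ex_d_mem hl hx hdx h1 h2
    ext
    · show C'.d (E.c z w.1) + C'.sg (E.c z w.2) * x' =
        (-1 : k) ^ q • E.c z (D.d w.1 + D.sg w.2 * φ.f x)
      rw [E.d z h1.1 h3, map_add, E.mul, E.sg, smul_add, smul_mul_assoc, smul_smul, ← mul_pow,
        neg_one_mul, neg_neg, one_pow, one_smul, h]
    · exact E.d z h1.2 h4
  f0 z w hw hd hO := by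
    have h1 : E.c z w.2 = 0 := E.low_degS F hl hw.2 z
    have h2 : C'.d (E.c z w.1) = 0 := by
      have h3 : C'.d (E.c z w.1) + C'.sg (E.c z w.2) * x' = 0 := congrArg Ex.fst hd
      rwa [h1, map_zero, zero_mul, add_zero] at h3
    ext
    · exact E.f0 z hw.1 h2 hO
    · exact h1

@[simp] theorem Ev.ex_c_fst (E : Ev φ ρ L rO q Z) (F : Fil φ L) {l : ℕ} (hl : Odd l) {x : B}
    (hx : x ∈ C.deg (l + 1)) (hdx : C.d x = 0) {x' : B'} (hx' : x' ∈ C'.deg (l + 1))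
    (hdx' : C'.d x' = 0) (h : ρ.f x = x') (h0 : rO.f (φ.f x) = 0) (z : Z) (w : NEx k D) :
    ((E.ex F hl hx hdx hx' hdx' h h0).c z w).1 = E.c z w.1 := rfl

@[simp] theorem Ev.ex_c_snd (E : Ev φ ρ L rO q Z) (F : Fil φ L) {l : ℕ} (hl : Odd l) {x : B}
    (hx : x ∈ C.deg (l + 1)) (hdx : C.d x = 0) {x' : B'} (hx' : x' ∈ C'.deg (l + 1))
    (hdx' : C'.d x' = 0) (h : ρ.f x = x') (h0 : rO.f (φ.f x) = 0) (z : Z) (w : NEx k D) :
    ((E.ex F hl hx hdx hx' hdx' h h0).c z w).2 = E.c z w.2 := rfl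

/-- **Detecting evaluations pass to `C ⟨e⟩`, `D ⟨e⟩`.** -/
def EvT.ex (E : EvT φ ρ L rO s q Z) (F : Fil φ L) {l : ℕ} (hl : Odd l) {x : B}
    (hx : x ∈ C.deg (l + 1)) (hdx : C.d x = 0) {x' : B'} (hx' : x' ∈ C'.deg (l + 1))
    (hdx' : C'.d x' = 0) (h : ρ.f x = x') (h0 : rO.f (φ.f x) = 0) :
    EvT (φ.ex hl hx hdx) (ρ.exMap hl hx hdx hx' hdx' h) (Lex (D := D) L)
      (augEx rO hl hx hdx h0) s q Z where
  toEv := E.toEv.ex F hl hx hdx hx' hdx' h h0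
  f1 hw hd hc := E.f1 hw.1 hd fun z => congrArg Ex.fst (hc z)

/-- **One step of the fibration passes to `C ⟨e⟩`, `D ⟨e⟩`.** -/
def PushD.ex {A : Type*} [Fintype A] (P : PushD φ φ' ρ r L L' rO q A) (F : Fil φ L)
    (F' : Fil φ' L') (hr : ∀ b, r.f (φ.f b) = φ'.f (ρ.f b)) {l : ℕ} (hl : Odd l) {x : B}
    (hx : x ∈ C.deg (l + 1)) (hdx : C.d x = 0) {x' : B'} (hx' : x' ∈ C'.deg (l + 1))
    (hdx' : C'.d x' = 0) (h : ρ.f x = x') (h0 : rO.f (φ.f x) = 0) :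
    PushD (φ.ex hl hx hdx) (φ'.ex hl hx' hdx') (ρ.exMap hl hx hdx hx' hdx' h)
      (φ.exMap φ' r hl hx hdx hx' hdx' ((hr x).trans (congrArg φ'.f h))) (Lex (D := D) L)
      (Lex (D := D') L') (augEx rO hl hx hdx h0) q A where
  toEv := P.toEv.ex F hl hx hdx hx' hdx' h h0
  V a := NEx.inl D' (P.V a)
  V_deg a := ⟨P.V_deg a, Submodule.zero_mem _⟩
  V_L a := ⟨P.V_L a, Submodule.zero_mem _⟩
  dV_L a := by
    refine ⟨?_, ?_⟩
    · show D'.d (P.V a) + D'.sg 0 * φ'.f x' ∈ L' q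
      rw [map_zero, zero_mul, add_zero]
      exact P.dV_L a
    · show D'.d 0 ∈ L' q
      rw [map_zero]
      exact Submodule.zero_mem _
  g := mapNEx P.g
  g_deg := by
    rintro m w ⟨h1, h2⟩
    refine ⟨P.g_deg h1, ?_⟩
    show P.g w.2 ∈ D'.degS l m
    rcases D.mem_degS h2 with h3 | ⟨j, h3, h4⟩
    · rw [h3, map_zero]; exact Submodule.zero_mem _
    · cases j with
      | zero => rw [P.g_deg_zero h4]; exact Submodule.zero_mem _
      | succ j => exact D'.degS_of (by omega) (P.g_deg h4)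
  g_deg_zero := by
    rintro w ⟨h1, h2⟩
    have h5 : w.2 = 0 := by
      rcases D.mem_degS h2 with h3 | ⟨j, h3, h4⟩
      · exact h3
      · have := hl.pos
        omega
    ext
    · exact P.g_deg_zero h1
    · show P.g w.2 = 0
      rw [h5, map_zero]
  g_sg w := by
    ext
    · exact P.g_sg w.1
    · show P.g (-D.sg w.2) = - -D'.sg (P.g w.2)
      rw [map_neg, P.g_sg]
  g_mul w b := by
    ext
    · exact P.g_mul w.1 b.1
    · show P.g (w.1 * φ.f b.2 + w.2 * D.sg (φ.f b.1)) =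
        P.g w.1 * φ'.f (ρ.f b.2) + P.g w.2 * D'.sg (φ'.f (ρ.f b.1))
      rw [map_add, P.g_mul, ← φ.sg', P.g_mul, ρ.sg, φ'.sg']
  g_L hw := ⟨P.g_L hw.1, P.g_L hw.2⟩
  main := by
    intro w h1 h2
    obtain ⟨h3, h4⟩ := F.ex_d_mem hl hx hdx h1 h2
    refine ⟨?_, ?_⟩
    · have e1 : ((φ.exMap φ' r hl hx hdx hx' hdx' ((hr x).trans (congrArg φ'.f h))).f w -
          ∑ a, NEx.inl D' (P.V a) * (φ'.ex hl hx' hdx').f (mapEx (P.c a) w) -
          (D'.ex hl (φ'.deg' hx') (φ'.d_closed hdx') (φ'.central_succ hl hx')).d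
            (mapNEx P.g w)).1 =
          (r.f w.1 - ∑ a, P.V a * φ'.f (P.c a w.1) - D'.d (P.g w.1)) -
            D'.sg (P.g w.2) * φ'.f x' := by
        rw [NEx.fst_sub, NEx.fst_sub, NEx_fst_sum]
        show r.f w.1 - ∑ a, P.V a * φ'.f (P.c a w.1) - (D'.d (P.g w.1) +
          D'.sg (P.g w.2) * φ'.f x') = _
        abel
      exact e1 ▸ Submodule.sub_mem _ (P.main h1.1 h3) (F'.mul (F'.sg (P.g_L h1.2)) x')
    · have e1 : ((φ.exMap φ' r hl hx hdx hx' hdx' ((hr x).trans (congrArg φ'.f h))).f w -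
          ∑ a, NEx.inl D' (P.V a) * (φ'.ex hl hx' hdx').f (mapEx (P.c a) w) -
          (D'.ex hl (φ'.deg' hx') (φ'.d_closed hdx') (φ'.central_succ hl hx')).d
            (mapNEx P.g w)).2 =
          (r.f w.2 - ∑ a, P.V a * φ'.f (P.c a w.2) - D'.d (P.g w.2)) := by
        rw [NEx.snd_sub, NEx.snd_sub, NEx_snd_sum]
        show r.f w.2 - ∑ a, (P.V a * φ'.f (P.c a w.2) + 0 * D'.sg (φ'.f (P.c a w.1))) -
          D'.d (P.g w.2) = _
        simp only [zero_mul, add_zero]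
      exact e1 ▸ P.main h1.2 h4

end Ev

end Vale.Agent.P216.H923G
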