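import Vale.Agent.P216.H977V.AbsEx
import Vale.Agent.P216.V754.Tri

/-!
# P216-V, row F-ABS: the structures of `H923G/Abs.lean` along towers

`T : Tw X₀` a tower over `X₀` (one scale), `φ : X₀ → Y`, `χ : X₀ → Z` base changes, `ψ : Y → Z`,
`ψ φ = χ`. `fil T A L`: the filtration of `T.obj A` by the filtration of the coefficients. `Fil`,
`Ev`, `EvT`, `PushD` for `(A.ev, B.ev, ψ, g, L, L', r)` pass to
`(((T.push φ).obj A).ev, ((T.push χ).obj B).ev, tri, ntri, fil, fil, tz)` (754's `Tri.lean`).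
-/

universe u v w u' v' u'' v'' z

namespace Vale.Agent.P216.H923G

open V609 V775 V754

variable {k : Type w} [Field k]

/-- the filtration of a tower -/
def fil : {X : CD.{v} k} → (T : Tw X) → (A : ND.{u} X) → (ℕ → Submodule k A.A) → ℕ →
    Submodule k (T.obj A).A
  | _, .nil _, _, L => L
  | _, .cons _ _ hl _ hx hdx T, A, L => fil T (A.ex hl hx hdx) (Lex (D := A.D) L)

/-- **The filtration passes to towers.** -/
theorem Fil.tw {X : CD.{v} k} (T : Tw X) (A : ND.{u} X) {L : ℕ → Submodule k A.A}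
    (F : Fil A.ev L) : Fil (T.obj A).ev (fil T A L) := by
  induction T with
  | nil X => exact F
  | cons X l hl x hx hdx T ih => exact ih (A.ex hl hx hdx) (F.ex hl hx hdx)

/-- maps which respect the filtrations -/
theorem fil_ntri {X₀ : CD.{u} k} (T : Tw X₀) {Y : CD.{v} k} {Z : CD.{v'} k} (φ : X₀.Hm Y)
    (χ : X₀.Hm Z) (ψ : Y.Hm Z) (h : ∀ a, ψ.f (φ.f a) = χ.f a) {A : ND.{u'} Y} {B : ND.{u''} Z}
    (g : NMp ψ A B) {L : ℕ → Submodule k A.A} {L' : ℕ → Submodule k B.A}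
    (hL : ∀ n, ∀ a ∈ L n, g.g.f a ∈ L' n) (n : ℕ) (a : ((T.push φ).obj A).A)
    (ha : a ∈ fil (T.push φ) A L n) : (ntri T φ χ ψ h g).g.f a ∈ fil (T.push χ) B L' n := by
  induction T generalizing Y Z with
  | nil X => exact hL n a ha
  | cons X l hl x hx hdx T ih =>
    exact ih (φ.ex hl hx hdx) (χ.ex hl hx hdx)
      (ψ.exMap hl (φ.deg hx) (φ.d_eq hdx) (χ.deg hx) (χ.d_eq hdx) (h x))
      (fun a => Ex.ext (h a.1) (h a.2)) (nex g hl hx hdx (h x))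
      (L := Lex (D := A.D) L) (L' := Lex (D := B.D) L')
      (fun n a ha => ⟨hL n a.1 ha.1, hL n a.2 ha.2⟩) a ha

/-- an element of the lowest filtration of degree `n` vanishes on the fibre -/
theorem tz_low {X : CD.{u} k} (T : Tw X) (A : ND.{u'} X) {L : ℕ → Submodule k A.A}
    {Ω : Type v'} [Ring Ω] [Algebra k Ω] {O : NDga k Ω} {r : NDga.Hom A.D O} (hr : Zp A r)
    (h : ∀ n, ∀ a ∈ L n, a ∈ A.D.deg n → r.f a = 0) (n : ℕ) (a : (T.obj A).A)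
    (ha : a ∈ fil T A L n) (hd : a ∈ (T.obj A).D.deg n) : (tz T A r hr).f a = 0 := by
  induction T with
  | nil X => exact h n a ha hd
  | cons X l hl x hx hdx T ih =>
    exact ih (A.ex hl hx hdx) (L := Lex (D := A.D) L) (hr.ex hl hx hdx)
      (fun n a ha hd => h n a.1 ha.1 hd.1) a ha hd

/-- **`Ev` along a tower.** -/
def Ev.tw : {X₀ : CD.{u} k} → (T : Tw X₀) → {Y : CD.{v} k} → {Z : CD.{v'} k} → (φ : X₀.Hm Y) →
    (χ : X₀.Hm Z) → (ψ : Y.Hm Z) → (h : ∀ a, ψ.f (φ.f a) = χ.f a) → {A : ND.{u'} Y} →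
    {Ω : Type v''} → [Ring Ω] → [Algebra k Ω] → {O : NDga k Ω} → {r : NDga.Hom A.D O} →
    (hr : Zp A r) → {L : ℕ → Submodule k A.A} → (F : Fil A.ev L) → {q : ℕ} → {I : Type z} →
    Ev A.ev ψ L r q I →
    Ev ((T.push φ).obj A).ev (tri T φ χ ψ h) (fil (T.push φ) A L) (tz (T.push φ) A r hr) q I
  | _, .nil _, _, _, _, _, _, _, _, _, _, _, _, _, _, _, _, _, _, E => E
  | _, .cons _ l hl x hx hdx T, _, _, φ, χ, ψ, h, _, _, _, _, _, _, hr, _, F, _, _, E =>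
    Ev.tw T (φ.ex hl hx hdx) (χ.ex hl hx hdx)
      (ψ.exMap hl (φ.deg hx) (φ.d_eq hdx) (χ.deg hx) (χ.d_eq hdx) (h x))
      (fun a => Ex.ext (h a.1) (h a.2)) (hr.ex hl (φ.deg hx) (φ.d_eq hdx))
      (F.ex hl (φ.deg hx) (φ.d_eq hdx))
      (E.ex F hl (φ.deg hx) (φ.d_eq hdx) (χ.deg hx) (χ.d_eq hdx) (h x) (hr l _ (φ.deg hx)))

/-- **`EvT` along a tower.** -/
def EvT.tw : {X₀ : CD.{u} k} → (T : Tw X₀) → {Y : CD.{v} k} → {Z : CD.{v'} k} → (φ : X₀.Hm Y) →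
    (χ : X₀.Hm Z) → (ψ : Y.Hm Z) → (h : ∀ a, ψ.f (φ.f a) = χ.f a) → {A : ND.{u'} Y} →
    {Ω Ω' : Type v''} → [Ring Ω] → [Algebra k Ω] → [Ring Ω'] → [Algebra k Ω'] → {O : NDga k Ω} →
    {O' : NDga k Ω'} → {r : NDga.Hom A.D O} → {s : NDga.Hom O O'} →
    (hr : Zp A r) → {L : ℕ → Submodule k A.A} → (F : Fil A.ev L) → {q : ℕ} → {I : Type z} →
    EvT A.ev ψ L r s q I →
    EvT ((T.push φ).obj A).ev (tri T φ χ ψ h) (fil (T.push φ) A L) (tz (T.push φ) A r hr) s q I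
  | _, .nil _, _, _, _, _, _, _, _, _, _, _, _, _, _, _, _, _, _, _, _, _, _, _, E => E
  | _, .cons _ l hl x hx hdx T, _, _, φ, χ, ψ, h, _, _, _, _, _, _, _, _, _, _, _, hr, _, F, _, _,
      E =>
    EvT.tw T (φ.ex hl hx hdx) (χ.ex hl hx hdx)
      (ψ.exMap hl (φ.deg hx) (φ.d_eq hdx) (χ.deg hx) (χ.d_eq hdx) (h x))
      (fun a => Ex.ext (h a.1) (h a.2)) (hr.ex hl (φ.deg hx) (φ.d_eq hdx))
      (F.ex hl (φ.deg hx) (φ.d_eq hdx))
      (E.ex F hl (φ.deg hx) (φ.d_eq hdx) (χ.deg hx) (χ.d_eq hdx) (h x) (hr l _ (φ.deg hx)))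

/-- **`PushD` along a tower.** -/
def PushD.tw : {X₀ : CD.{u} k} → (T : Tw X₀) → {Y : CD.{v} k} → {Z : CD.{v'} k} →
    (φ : X₀.Hm Y) → (χ : X₀.Hm Z) → (ψ : Y.Hm Z) → (h : ∀ a, ψ.f (φ.f a) = χ.f a) →
    {A : ND.{u'} Y} → {B : ND.{u''} Z} → (g : NMp ψ A B) → {Ω : Type v''} → [Ring Ω] →
    [Algebra k Ω] → {O : NDga k Ω} → {r : NDga.Hom A.D O} → (hr : Zp A r) →
    {L : ℕ → Submodule k A.A} → {L' : ℕ → Submodule k B.A} → (F : Fil A.ev L) →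
    (F' : Fil B.ev L') → {q : ℕ} → {I : Type z} → [Fintype I] →
    PushD A.ev B.ev ψ g.g L L' r q I →
    PushD ((T.push φ).obj A).ev ((T.push χ).obj B).ev (tri T φ χ ψ h) (ntri T φ χ ψ h g).g
      (fil (T.push φ) A L) (fil (T.push χ) B L') (tz (T.push φ) A r hr) q I
  | _, .nil _, _, _, _, _, _, _, _, _, _, _, _, _, _, _, _, _, _, _, _, _, _, _, P => P
  | _, .cons _ l hl x hx hdx T, _, _, φ, χ, ψ, h, _, _, g, _, _, _, _, _, hr, _, _, F, F', _, _, _,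
      P =>
    PushD.tw T (φ.ex hl hx hdx) (χ.ex hl hx hdx)
      (ψ.exMap hl (φ.deg hx) (φ.d_eq hdx) (χ.deg hx) (χ.d_eq hdx) (h x))
      (fun a => Ex.ext (h a.1) (h a.2)) (nex g hl hx hdx (h x))
      (hr.ex hl (φ.deg hx) (φ.d_eq hdx)) (F.ex hl (φ.deg hx) (φ.d_eq hdx))
      (F'.ex hl (χ.deg hx) (χ.d_eq hdx))
      (P.ex F F' g.ev hl (φ.deg hx) (φ.d_eq hdx) (χ.deg hx) (χ.d_eq hdx) (h x)
        (hr l _ (φ.deg hx)))

end Vale.Agent.P216.H923G
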