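import Vale.Agent.P216.V609.NRank

/-!
# P216-V, row D1 / F-PUSH: the interface `HSys`, `LCo`

`HSys`: dgas `A t` over a base `M` (609's `NSys`) with a list degree `lq`, `d = dh + dv`, and the
restriction `φ` to the based loops `O t`.
`LCo S s t q`: the vertical cohomology in the list degree `q`, from the level `s` to the level `t`:
finitely many classes `V a` on the level `t`, and the relation `Co w κ` (`κ` are the coefficients of
the vertical class of `w`) on the level `s`.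
-/

set_option linter.all false

namespace Vale.Agent.P216.H977V

open Vale.Agent.P216.V609

universe w v u x

/-- Levels of dgas over a base, with a list degree and the restriction to the based loops. -/
structure HSys (k : Type w) [Field k] extends NSys.{w, v, u} k where
  Q : ℝ → Type x
  [rQ : ∀ t, Ring (Q t)]
  [aQ : ∀ t, Algebra k (Q t)]
  O : ∀ t, NDga k (Q t)
  φ : ∀ t, NDga.Hom (C t) (O t)
  σ : ∀ s t, t ≤ s → NDga.Hom (O s) (O t)
  φ_ρ : ∀ s t h a, (φ t).f ((ρ s t h).f a) = (σ s t h).f ((φ s).f a)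
  /-- the part of list degree `q` -/
  lq : ∀ t, ℕ → A t →ₗ[k] A t
  dh : ∀ t, A t →ₗ[k] A t
  dv : ∀ t, A t →ₗ[k] A t
  lq_self : ∀ t q a, lq t q (lq t q a) = lq t q a
  lq_ne : ∀ t p q a, p ≠ q → lq t p (lq t q a) = 0
  lq_mem : ∀ {t m a} q, a ∈ (C t).deg m → lq t q a ∈ (C t).deg m
  lq_zero : ∀ {t m a} q, a ∈ (C t).deg m → m < q → lq t q a = 0
  lq_sum : ∀ {t m a}, a ∈ (C t).deg m → a = ∑ q ∈ Finset.range (m + 1), lq t q a
  lq_ρ : ∀ s t h q a, (ρ s t h).f (lq s q a) = lq t q ((ρ s t h).f a)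
  lq_ev : ∀ t q r a, lq t q ((ev t).f r * a) = (ev t).f r * lq t q a
  d_eq : ∀ t a, (C t).d a = dh t a + dv t a
  lq_dh : ∀ t q a, lq t q (dh t a) = dh t (lq t q a)
  lq_dv : ∀ t q a, lq t (q + 1) (dv t a) = dv t (lq t q a)
  lq_dv_zero : ∀ t a, lq t 0 (dv t a) = 0
  dv_ev : ∀ t r a, dv t ((ev t).f r * a) = (ev t).f (CM.sg r) * dv t a
  /-- only the base degree `0` restricts to the based loops -/
  φ_lq : ∀ {t m a} q, a ∈ (C t).deg m → q < m → (φ t).f (lq t q a) = 0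

attribute [instance] HSys.rQ HSys.aQ

namespace HSys

variable {k : Type w} [Field k] (S : HSys.{w, v, u, x} k)

/-- `a` has base degree `j`, list degree `q`, and is vertically closed. -/
structure IsL (t : ℝ) (j q : ℕ) (a : S.A t) : Prop where
  deg : a ∈ (S.C t).deg (j + q)
  lq : S.lq t q a = a
  dv : S.dv t a = 0

/-- `g` has total degree `m`, list degree `q - 1`; it is zero if `q = 0`. -/
structure IsG (t : ℝ) (m q : ℕ) (g : S.A t) : Prop where
  deg : g ∈ (S.C t).deg m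
  lq : ∀ q', q' + 1 = q → S.lq t q' g = g
  zero : q = 0 → g = 0

/-- The vertical cohomology in the list degree `q`, from the level `s` to the level `t`. -/
structure LCo (s t : ℝ) (h : t ≤ s) (q : ℕ) where
  I : Type
  [fI : Fintype I]
  V : I → S.A t
  V_L : ∀ a, S.IsL t 0 q (V a)
  H : I → S.A t
  H_G : ∀ a, S.IsG t q q (H a)
  dh_V : ∀ a, S.dh t (V a) = S.dv t (H a)
  Co : S.A s → (I → S.M) → Prop
  ex : ∀ {j w}, S.IsL s j q w → ∃ κ, Co w κ ∧ ∀ a, κ a ∈ S.CM.deg j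
  split : ∀ {j w κ}, S.IsL s j q w → Co w κ → (∀ a, κ a ∈ S.CM.deg j) →
    ∃ g, (∀ m, m + 1 = j + q → S.IsG t m q g) ∧ (q = 0 → g = 0) ∧
      (S.ρ s t h).f w = ∑ a, (S.ev t).f (κ a) * V a + S.dv t g
  zero : ∀ {m g κ}, S.IsG s m q g → Co (S.dv s g) κ → ∀ a, κ a = 0
  add : ∀ {w κ w' κ'}, Co w κ → Co w' κ' → Co (w + w') fun a => κ a + κ' a
  mul : ∀ {p r w κ}, r ∈ S.CM.deg p → Co w κ → Co ((S.ev s).f r * w) fun a => r * κ a
  dh : ∀ {j w κ}, S.IsL s j q w → Co w κ → (∀ a, κ a ∈ S.CM.deg j) →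
    Co (S.dh s w) fun a => S.CM.d (κ a)
  Om : ∀ {w : S.A s} {r : I → k}, S.IsL s 0 q w → Co w (fun a => algebraMap k S.M (r a)) →
    (S.φ s).f w ∈ (S.O s).B q → ∀ a, r a = 0

attribute [instance] LCo.fI

/-- The vertical cohomology at all levels `≥ t₀`, with the loss `c`. -/
structure LCos (c : ℝ) where
  hc : 0 ≤ c
  t₀ : ℝ
  co : ∀ (t : ℝ), t₀ ≤ t → ∀ q, S.LCo (t + c) t (by linarith) q

/-- base degree `≥ j` -/
def Fil (t : ℝ) (j m : ℕ) (a : S.A t) : Prop :=
  a ∈ (S.C t).deg m ∧ ∀ q, m < q + j → S.lq t q a = 0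

end HSys

end Vale.Agent.P216.H977V
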