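import Mathlib.Algebra.Module.Submodule.Basic
import Mathlib.Algebra.Module.LinearMap.Basic
import Mathlib.Tactic.Ring
import Mathlib.Tactic.Linarith
import Mathlib.Tactic.Abel
import Mathlib.Data.Real.Basic

/-!
# P216-V, block (F-HYB): PUSH, the abstract form

`DC`: double complexes `K t` (levels `t : ℝ`), `Dg t j q` = base degree `j`, list degree `q`, with
`δ : (j, q) → (j, q + 1)`, `d : (j, q) → (j + 1, q)`, over a base complex `B`.
`Cf`: the vertical cohomology: `ev` and `tot`, with loss `C`.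
`push`: if `H^j(B) = 0` for `0 < j < N`, `f = (f j)` of total degree `m` has a vertically exact
component `f 0` and `(D f) j = 0` for `j < N`, then `ev ((D f) N) a` is exact in `B`, for every `a`.
-/

set_option linter.all false

namespace Vale.Agent.P216.H977V

universe u v

/-- A double complex with levels, over a base complex. -/
structure DC (k : Type) [Field k] where
  K : ℝ → Type u
  [gK : ∀ t, AddCommGroup (K t)]
  [mK : ∀ t, Module k (K t)]
  Dg : ∀ t, ℕ → ℕ → Submodule k (K t)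
  res : ∀ {s t : ℝ}, s ≤ t → K t →ₗ[k] K s
  δ : ∀ t, K t →ₗ[k] K t
  d : ∀ t, K t →ₗ[k] K t
  res_mem : ∀ {s t : ℝ} (h : s ≤ t) {j q : ℕ} {w : K t}, w ∈ Dg t j q → res h w ∈ Dg s j q
  res_res : ∀ {r s t : ℝ} (h : s ≤ t) (h' : r ≤ s) (w : K t), res h' (res h w) = res (h'.trans h) w
  res_δ : ∀ {s t : ℝ} (h : s ≤ t) (w : K t), res h (δ t w) = δ s (res h w)
  res_d : ∀ {s t : ℝ} (h : s ≤ t) (w : K t), res h (d t w) = d s (res h w)
  δ_mem : ∀ {t j q} {w : K t}, w ∈ Dg t j q → δ t w ∈ Dg t j (q + 1)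
  d_mem : ∀ {t j q} {w : K t}, w ∈ Dg t j q → d t w ∈ Dg t (j + 1) q
  δδ : ∀ t w, δ t (δ t w) = 0
  dd : ∀ t w, d t (d t w) = 0
  δd : ∀ t w, δ t (d t w) + d t (δ t w) = 0
  B : Type v
  [gB : AddCommGroup B]
  [mB : Module k B]
  Bg : ℕ → Submodule k B
  dB : B →ₗ[k] B

attribute [instance] DC.gK DC.mK DC.gB DC.mB

variable {k : Type} [Field k]

/-- The vertical cohomology in the list degree `q`, from the level `s` to the level `t`. -/
structure Cf (S : DC.{u, v} k) (s t : ℝ) (q : ℕ) where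
  hst : t ≤ s
  I : Type
  σ : k
  σ' : k
  hσ : σ ≠ 0
  hσ' : σ' ≠ 0
  ev : S.K s →ₗ[k] (I → S.B)
  tot : (I → S.B) →ₗ[k] S.K t
  ev_mem : ∀ {j w}, w ∈ S.Dg s j q → ∀ a, ev w a ∈ S.Bg j
  ev_δ : ∀ {j q' g}, q' + 1 = q → g ∈ S.Dg s j q' → ev (S.δ s g) = 0
  ev_d : ∀ {j w}, w ∈ S.Dg s j q → S.δ s w = 0 → ∀ a, ev (S.d s w) a = σ • S.dB (ev w a)
  tot_mem : ∀ {j c}, (∀ a, c a ∈ S.Bg j) → tot c ∈ S.Dg t j q
  δ_tot : ∀ {j c}, (∀ a, c a ∈ S.Bg j) → S.δ t (tot c) = 0
  d_tot : ∀ {j c}, (∀ a, c a ∈ S.Bg j) → ∃ U, (∀ q', q' + 1 = q → U ∈ S.Dg t (j + 1) q') ∧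
    (q = 0 → U = 0) ∧ S.d t (tot c) = σ' • tot (fun a => S.dB (c a)) + S.δ t U
  split : ∀ {j w}, w ∈ S.Dg s j q → S.δ s w = 0 → ∃ g, (∀ q', q' + 1 = q → g ∈ S.Dg t j q') ∧
    (q = 0 → g = 0) ∧ S.res hst w = tot (ev w) + S.δ t g

namespace DC

variable (S : DC.{u, v} k)

/-- A cochain of total degree `m`: `f j` has base degree `j`. -/
structure Tt (t : ℝ) (m : ℕ) (f : ℕ → S.K t) : Prop where
  mem : ∀ j q, j + q = m → f j ∈ S.Dg t j q
  zero : ∀ j, m < j → f j = 0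

/-- The total differential. -/
def DD {t : ℝ} (f : ℕ → S.K t) : ℕ → S.K t
  | 0 => S.δ t (f 0)
  | j + 1 => S.δ t (f (j + 1)) + S.d t (f j)

variable {S} {r s t : ℝ} {m : ℕ} {f g : ℕ → S.K t}

theorem DD_sub (f g : ℕ → S.K t) (i : ℕ) :
    S.DD (fun i => f i - g i) i = S.DD f i - S.DD g i := by
  rcases i with _ | i
  · show S.δ t (f 0 - g 0) = _
    rw [map_sub]
    rfl
  · show S.δ t (f (i + 1) - g (i + 1)) + S.d t (f i - g i) = (_ + _) - (_ + _)
    rw [map_sub, map_sub]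
    abel

theorem DD_res (h : s ≤ t) (f : ℕ → S.K t) (i : ℕ) :
    S.DD (fun i => S.res h (f i)) i = S.res h (S.DD f i) := by
  rcases i with _ | i
  · exact (S.res_δ h _).symm
  · show S.δ s _ + S.d s _ = S.res h (_ + _)
    rw [map_add, S.res_δ, S.res_d]

theorem DD_DD (f : ℕ → S.K t) (i : ℕ) : S.DD (S.DD f) i = 0 := by
  rcases i with _ | _ | i
  · exact S.δδ t _
  · show S.δ t (S.δ t (f 1) + S.d t (f 0)) + S.d t (S.δ t (f 0)) = 0
    rw [map_add, S.δδ, zero_add, S.δd]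
  · show S.δ t (S.δ t (f (i + 2)) + S.d t (f (i + 1))) +
      S.d t (S.δ t (f (i + 1)) + S.d t (f i)) = 0
    rw [map_add, map_add, S.δδ, S.dd, zero_add, add_zero, S.δd]

theorem Tt.sub (hf : S.Tt t m f) (hg : S.Tt t m g) : S.Tt t m fun i => f i - g i :=
  ⟨fun j q h => Submodule.sub_mem _ (hf.mem j q h) (hg.mem j q h),
    fun j h => by rw [hf.zero j h, hg.zero j h, sub_zero]⟩

theorem Tt.res (h : s ≤ t) (hf : S.Tt t m f) : S.Tt s m fun i => S.res h (f i) :=
  ⟨fun j q h' => S.res_mem h (hf.mem j q h'), fun j h' => by rw [hf.zero j h', map_zero]⟩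

theorem Tt.DD (hf : S.Tt t m f) : S.Tt t (m + 1) (S.DD f) := by
  refine ⟨fun j q h => ?_, fun j h => ?_⟩
  · rcases j with _ | j
    · obtain rfl : q = m + 1 := by omega
      exact S.δ_mem (hf.mem 0 m (by omega))
    · refine Submodule.add_mem _ ?_ (S.d_mem (hf.mem j q (by omega)))
      rcases q with _ | q
      · rw [hf.zero _ (by omega), map_zero]
        exact Submodule.zero_mem _
      · exact S.δ_mem (hf.mem _ q (by omega))
  · rcases j with _ | j
    · omega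
    · show S.δ t _ + S.d t _ = 0
      rw [hf.zero _ (by omega), hf.zero _ (by omega), map_zero, map_zero, add_zero]

/-- **One step.** -/
theorem push_step {j q : ℕ} (c : Cf S s t q) (hj : 1 ≤ j) (hq : j + q = m) {f : ℕ → S.K s}
    (hf : S.Tt s m f) (h0 : ∀ i < j, f i = 0) (hD : S.DD f j = 0) (hD' : S.DD f (j + 1) = 0)
    (hB : ∀ b ∈ S.Bg j, S.dB b = 0 → ∃ b' ∈ S.Bg (j - 1), S.dB b' = b) :
    ∃ f' : ℕ → S.K t, S.Tt t m f' ∧ (∀ i < j + 1, f' i = 0) ∧
      ∀ i, S.DD f' i = S.res c.hst (S.DD f i) := by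
  obtain ⟨j, rfl⟩ : ∃ j', j = j' + 1 := ⟨j - 1, by omega⟩
  obtain ⟨m, rfl⟩ : ∃ m', m = m' + 1 := ⟨m - 1, by omega⟩
  rw [Nat.add_sub_cancel] at hB
  have hfj := hf.mem (j + 1) q (by omega)
  have hδ : S.δ s (f (j + 1)) = 0 := by
    have h1 : S.δ s (f (j + 1)) + S.d s (f j) = 0 := hD
    rwa [h0 j (by omega), map_zero, add_zero] at h1
  -- the coefficients are closed
  have hcl : ∀ a, S.dB (c.ev (f (j + 1)) a) = 0 := by
    intro a
    have h1 : S.δ s (f (j + 2)) + S.d s (f (j + 1)) = 0 := hD'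
    have h2 := c.ev_d hfj hδ a
    have h3 : c.ev (S.d s (f (j + 1))) = 0 := by
      rw [eq_neg_of_add_eq_zero_right h1, map_neg, neg_eq_zero]
      rcases q with _ | q
      · rw [hf.zero _ (by omega), map_zero, map_zero]
      · exact c.ev_δ rfl (hf.mem (j + 2) q (by omega))
    rw [h3] at h2
    have h4 : c.σ • S.dB (c.ev (f (j + 1)) a) = 0 := h2.symm
    rw [← one_smul k (S.dB _), ← inv_mul_cancel₀ c.hσ, mul_smul, h4, smul_zero]
  choose b hb hb' using fun a => hB _ (c.ev_mem hfj a) (hcl a)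
  obtain ⟨g, hg, hg0, hsp⟩ := c.split hfj hδ
  obtain ⟨U, hU, hU0, hd⟩ := c.d_tot hb
  have hev : (fun a => S.dB (b a)) = c.ev (f (j + 1)) := funext hb'
  rw [hev] at hd
  set γ := g - c.σ'⁻¹ • U with hγ
  set e : ℕ → S.K t := fun i => if i = j then c.σ'⁻¹ • c.tot b else if i = j + 1 then γ else 0
    with he
  have e0 : ∀ i, i ≠ j → i ≠ j + 1 → e i = 0 := fun i h1 h2 => by
    show (if _ then _ else if _ then _ else _) = _
    rw [if_neg h1, if_neg h2]
  have e1 : e j = c.σ'⁻¹ • c.tot b := if_pos rfl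
  have e2 : e (j + 1) = γ := by
    show (if _ then _ else if _ then _ else _) = _
    rw [if_neg (by omega), if_pos rfl]
  have hm : S.Tt t m e := by
    refine ⟨fun i p h => ?_, fun i h => ?_⟩
    · by_cases h1 : i = j
      · subst h1
        rw [e1]
        obtain rfl : p = q := by omega
        exact Submodule.smul_mem _ _ (c.tot_mem hb)
      by_cases h2 : i = j + 1
      · subst h2
        rw [e2, hγ]
        exact Submodule.sub_mem _ (hg p (by omega)) (Submodule.smul_mem _ _ (hU p (by omega)))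
      · rw [e0 i h1 h2]
        exact Submodule.zero_mem _
    · by_cases h1 : i = j
      · omega
      by_cases h2 : i = j + 1
      · subst h2
        rw [e2, hγ, hg0 (by omega), hU0 (by omega), smul_zero, sub_zero]
      · exact e0 i h1 h2
  refine ⟨fun i => S.res c.hst (f i) - S.DD e i, (hf.res c.hst).sub hm.DD, fun i hi => ?_,
    fun i => ?_⟩
  · have hlow : ∀ i < j, S.DD e i = 0 := by
      intro i hi
      rcases i with _ | i
      · show S.δ t (e 0) = 0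
        rw [e0 0 (by omega) (by omega), map_zero]
      · show S.δ t (e (i + 1)) + S.d t (e i) = 0
        rw [e0 _ (by omega) (by omega), e0 _ (by omega) (by omega), map_zero, map_zero, add_zero]
    have hj0 : S.DD e j = 0 := by
      have h1 : S.δ t (e j) = 0 := by rw [e1, map_smul, c.δ_tot hb, smul_zero]
      rcases j with _ | j
      · exact h1
      · show S.δ t (e (j + 1)) + S.d t (e j) = 0
        rw [h1, e0 j (by omega) (by omega), map_zero, add_zero]
    rcases Nat.lt_trichotomy i j with h | h | h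
    · show S.res c.hst (f i) - S.DD e i = 0
      rw [h0 i (by omega), map_zero, hlow i h, sub_zero]
    · subst h
      show S.res c.hst (f i) - S.DD e i = 0
      rw [h0 i (by omega), map_zero, hj0, sub_zero]
    · obtain rfl : i = j + 1 := by omega
      show S.res c.hst (f (j + 1)) - (S.δ t (e (j + 1)) + S.d t (e j)) = 0
      rw [e1, e2, hγ, map_smul, hd, hsp, map_sub, map_smul, smul_add, smul_smul,
        inv_mul_cancel₀ c.hσ', one_smul]
      abel
  · rw [DD_sub, DD_DD, sub_zero, DD_res]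

/-- All the vertical data below a level, with a uniform loss. -/
structure Cfs (S : DC.{u, v} k) (C : ℝ) where
  hC : 0 ≤ C
  t₀ : ℝ
  cf : ∀ (t : ℝ), t₀ ≤ t → ∀ q, Cf S (t + C) t q

/-- Steps `1, …, j`. -/
theorem push_steps {C : ℝ} (c : Cfs S C) {N : ℕ}
    (hB : ∀ j, 0 < j → j < N → ∀ b ∈ S.Bg j, S.dB b = 0 → ∃ b' ∈ S.Bg (j - 1), S.dB b' = b) :
    ∀ (j : ℕ) (t s : ℝ) (hs : t + j * C ≤ s) (hts : t ≤ s) (f : ℕ → S.K s), c.t₀ ≤ t →
      (j = 0 ∨ j + 1 < N) → j ≤ m → S.Tt s m f → f 0 = 0 → (∀ i < N, S.DD f i = 0) →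
      ∃ f' : ℕ → S.K t, S.Tt t m f' ∧ (∀ i < j + 1, f' i = 0) ∧
        ∀ i, S.DD f' i = S.res hts (S.DD f i) := by
  intro j
  induction j with
  | zero =>
    intro t s hs hts f ht _ _ hf h0 hD
    exact ⟨fun i => S.res hts (f i), hf.res hts, fun i hi => by
      obtain rfl : i = 0 := by omega
      show S.res hts (f 0) = 0
      rw [h0, map_zero], fun i => DD_res hts f i⟩
  | succ j ih =>
    intro t s hs hts f ht hjN hjm hf h0 hD
    have hC := c.hC
    have hjC : 0 ≤ (j : ℝ) * C := by positivity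
    have hs' : t + C + j * C ≤ s := by
      push_cast at hs
      linarith
    obtain ⟨f₁, hf₁, hz, hDf⟩ := ih (t + C) s hs' (by linarith) f (by linarith) (by omega)
      (by omega) hf h0 hD
    obtain ⟨f₂, hf₂, hz₂, hDf₂⟩ := push_step (c.cf t ht (m - (j + 1))) (j := j + 1) (by omega)
      (by omega) hf₁ hz (by rw [hDf, hD _ (by omega), map_zero])
      (by rw [hDf, hD _ (by omega), map_zero]) (hB _ (by omega) (by omega))
    refine ⟨f₂, hf₂, hz₂, fun i => ?_⟩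
    rw [hDf₂, hDf, S.res_res]

/-- **PUSH.** -/
theorem push {C : ℝ} (c : Cfs S C) {N : ℕ} (hN : 1 ≤ N) (hNm : N ≤ m + 1)
    (hB : ∀ j, 0 < j → j < N → ∀ b ∈ S.Bg j, S.dB b = 0 → ∃ b' ∈ S.Bg (j - 1), S.dB b' = b)
    (ht : c.t₀ ≤ t) (hs : t + N * C ≤ s) (hts : t + C ≤ s) {f : ℕ → S.K s} (hf : S.Tt s m f)
    (h0 : ∃ g, (∀ m', m' + 1 = m → g ∈ S.Dg s 0 m') ∧ (m = 0 → g = 0) ∧ f 0 = S.δ s g)
    (hD : ∀ i < N, S.DD f i = 0) (a : (c.cf t ht (m + 1 - N)).I) :
    ∃ β ∈ S.Bg (N - 1), S.dB β = (c.cf t ht (m + 1 - N)).ev (S.res hts (S.DD f N)) a := by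
  have hC := c.hC
  -- kill the component `0`
  obtain ⟨f₀, hf₀, hz₀, hD₀⟩ : ∃ f₀ : ℕ → S.K s, S.Tt s m f₀ ∧ f₀ 0 = 0 ∧
      ∀ i, S.DD f₀ i = S.DD f i := by
    obtain ⟨g, hg, hg0, hfg⟩ := h0
    rcases m with _ | m
    · refine ⟨f, hf, by rw [hfg, hg0 rfl, map_zero], fun _ => rfl⟩
    · set e : ℕ → S.K s := fun i => if i = 0 then g else 0 with he
      have hm : S.Tt s m e := by
        refine ⟨fun i p h => ?_, fun i h => if_neg (by omega)⟩
        rcases i with _ | i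
        · obtain rfl : p = m := by omega
          exact hg p rfl
        · exact Submodule.zero_mem _
      refine ⟨fun i => f i - S.DD e i, hf.sub hm.DD, ?_, fun i => by
        rw [DD_sub, DD_DD, sub_zero]⟩
      show f 0 - S.δ s g = 0
      rw [hfg, sub_self]
  -- the steps
  obtain ⟨f₁, hf₁, hz₁, hD₁⟩ : ∃ f₁ : ℕ → S.K (t + C), S.Tt (t + C) m f₁ ∧
      (∀ i < N - 1, f₁ i = 0) ∧ ∀ i, S.DD f₁ i = S.res hts (S.DD f₀ i) := by
    have h1 : t + C + ((N - 2 : ℕ) : ℝ) * C ≤ s := by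
      have h2 : ((N - 2 : ℕ) : ℝ) + 1 ≤ N := by
        rcases Nat.lt_or_ge N 2 with h | h
        · obtain rfl : N = 1 := by omega
          norm_num
        · rw [Nat.cast_sub h]
          norm_num
          linarith
      nlinarith
    obtain ⟨f₁, h3, h4, h5⟩ := push_steps (m := m) c hB (N - 2) (t + C) s h1 hts f₀
      (by linarith) (by omega) (by omega) hf₀ hz₀ (fun i hi => by rw [hD₀, hD i hi])
    exact ⟨f₁, h3, fun i hi => h4 i (by omega), h5⟩
  obtain ⟨N, rfl⟩ : ∃ N', N = N' + 1 := ⟨N - 1, by omega⟩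
  rw [Nat.add_sub_cancel] at hz₁ ⊢
  have hfN := hf₁.mem N (m + 1 - (N + 1)) (by omega)
  have hDN : S.DD f₁ N = 0 := by rw [hD₁, hD₀, hD N (by omega), map_zero]
  have hδ : S.δ _ (f₁ N) = 0 := by
    rcases N with _ | N
    · exact hDN
    · have h1 : S.δ _ (f₁ (N + 1)) + S.d _ (f₁ N) = 0 := hDN
      rwa [hz₁ N (by omega), map_zero, add_zero] at h1
  refine ⟨(c.cf t ht (m + 1 - (N + 1))).σ • (c.cf t ht (m + 1 - (N + 1))).ev (f₁ N) a, Submodule.smul_mem _ _ ((c.cf t ht (m + 1 - (N + 1))).ev_mem hfN a), ?_⟩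
  have h6 : (c.cf t ht (m + 1 - (N + 1))).ev (S.δ _ (f₁ (N + 1))) = 0 := by
    rcases Nat.eq_or_lt_of_le hNm with h | h
    · rw [hf₁.zero _ (by omega), map_zero, map_zero]
    · exact (c.cf t ht (m + 1 - (N + 1))).ev_δ (q' := m + 1 - (N + 1) - 1) (by omega) (hf₁.mem (N + 1) _ (by omega))
  have h7 : S.DD f₁ (N + 1) = S.δ _ (f₁ (N + 1)) + S.d _ (f₁ N) := rfl
  rw [← hD₀, ← hD₁, map_smul, ← (c.cf t ht (m + 1 - (N + 1))).ev_d hfN hδ a, h7, map_add, h6, zero_add]

end DC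

end Vale.Agent.P216.H977V
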