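import Vale.Agent.P216.H929V.HD
import Vale.Agent.P216.V1.Point
import Vale.Agent.P216.V754.Tri

/-!
# P216-V, (F): positive degrees of the base vanish on the fibre over a point

`rO_iC`: restriction of the hybrid algebra along a square whose target base set is one point kills
the forms of positive degree on the base; `zp_pull`: the same as 754's `Zp`; `zp_germ`: for germs.
-/

set_option linter.all false

open Set Filter Topology
open scoped ContDiff

namespace Vale.Agent.P216.H977V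

open Vale.Agent.P231.Fm Vale.Agent.P231.WA V1 V609 H285V H929V V775 V754

noncomputable section

variable {E M N : Type} [PseudoMetricSpace E] [PseudoMetricSpace M] [PseudoMetricSpace N]
variable {π : E → N} {ρ : M → N} {A : Set M} {X : Set E}
variable {E' M' N' : Type} [PseudoMetricSpace E'] [PseudoMetricSpace M'] [PseudoMetricSpace N']
variable {π' : E' → N'} {ρ' : M' → N'} {A' : Set M'} {X' : Set E'} {ε ε' : ℝ}

/-- **a restriction to a point kills the positive degrees of the base** -/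
theorem pull_iC_zero {Φ : MP E' M' → MP E M} (hs : Sq Φ)
    (hΦ : (DT π' ρ' A' X' ε').Map (DT π ρ A X ε) Φ) {φ : (E' →₀ ℝ) → (E →₀ ℝ)}
    (hφ : (DM X' ε').Map (DM X ε) φ) (e : ∀ p, (Φ p).1 = φ p.1) {b : E'}
    (hX : ∀ x ∈ X', x = b) {m : ℕ} {x : Form (DM X ε)} (hx : x ∈ (fC (DM X ε)).deg (m + 1)) :
    (pullHom hs hΦ).f ((iC π ρ A X ε).f x) = 0 := by
  have h1 : Form.pull φ hφ x = 0 :=
    DM_eq_zero hX (Nat.succ_pos m) ((show Form.IsDeg (m + 1) x from hx).pull _ hφ)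
  rw [pullHom_iC hs hΦ hφ e, h1, map_zero]

/-- the hybrid algebra over the base, at one scale -/
abbrev hnd (π : E → N) (ρ : M → N) (A : Set M) (X : Set E) (ε : ℝ) :
    ND (⟨Form (DM X ε), fC (DM X ε)⟩ : CD ℝ) := ⟨HT π ρ A X ε, hN π ρ A X ε, iC π ρ A X ε⟩

/-- **`Zp` for a restriction to a point** -/
theorem zp_pull {Φ : MP E' M' → MP E M} (hs : Sq Φ)
    (hΦ : (DT π' ρ' A' X' ε').Map (DT π ρ A X ε) Φ) {φ : (E' →₀ ℝ) → (E →₀ ℝ)}
    (hφ : (DM X' ε').Map (DM X ε) φ) (e : ∀ p, (Φ p).1 = φ p.1) {b : E'}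
    (hX : ∀ x ∈ X', x = b) : Zp (hnd π ρ A X ε) (pullHom hs hΦ) :=
  fun m a ha => pull_iC_zero hs hΦ hφ e hX ha

/-- **`Zp` for the inclusion of the fibre over a point** -/
theorem zp_incl {A₁ : Set M} {X₁ : Set E} (hA : A₁ ⊆ A) (hX : X₁ ⊆ X) (hε : ε' ≤ ε) {b : E}
    (hb : ∀ x ∈ X₁, x = b) :
    Zp (hnd π ρ A X ε) (pullHom Sq.id (map_mono (π := π) (ρ := ρ) hA hX hε)) :=
  zp_pull Sq.id _ (φ := id) (map_monoM hX hε) (fun _ => rfl) hb

/-- germs of forms of positive degree over a point vanish -/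
theorem vr_deg_zero {X₁ : Set E} {b : E} (hb : ∀ x ∈ X₁, x = b) {m : ℕ} {z : GA X₁}
    (hz : z ∈ (vr X₁).cdga.deg (m + 1)) : z = 0 := by
  obtain ⟨ε, hε, -, w, hw, rfl⟩ := (vr X₁).exists_deg hz one_pos
  have h1 : w = 0 := DM_eq_zero hb (Nat.succ_pos m) hw
  rw [h1]
  exact map_zero ((vr X₁).germ hε)

/-- **`Zp` for germs**: any morphism over a morphism of bases into the germs at a point -/
theorem zp_germ {X₀ : CD ℝ} {B : ND X₀} {X₁ : Set E} {b : E} (hb : ∀ x ∈ X₁, x = b)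
    {χ : X₀.Hm (⟨(vr X₁).GA, (vr X₁).cdga⟩ : CD ℝ)}
    {C : ND (⟨(vr X₁).GA, (vr X₁).cdga⟩ : CD ℝ)} (g : NMp χ B C) : Zp B g.g := by
  intro m a ha
  rw [g.ev, vr_deg_zero hb (χ.deg ha), map_zero]

end

end Vale.Agent.P216.H977V
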